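import Vale.Agent.P325.H290.Prod

/-!
# Iterated functionals

Expansion of the product of a functional into products of its parts.
-/

namespace Vale.Agent.P325.H290

open Finset Vale.Agent.Lib.PCP Vale.Agent.P333.NP

section mul

variable {Γ : Type}

/-- Iterated application of functionals. -/
def mul : (k : ℕ) → (Fin k → ((Γ → ℝ) → ℝ)) → ((Fin k → Γ) → ℝ) → ℝ
  | 0, _, Ψ => Ψ Fin.elim0
  | k + 1, L, Ψ => L 0 fun c => mul k (fun i => L i.succ) fun c' => Ψ (Fin.cons c c')

theorem mul_point {X : Type} (g : X → Γ) : ∀ (k : ℕ) (x : Fin k → X) (Ψ : (Fin k → Γ) → ℝ),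
    mul k (fun i φ => φ (g (x i))) Ψ = Ψ fun i => g (x i)
  | 0, x, Ψ => by
    unfold mul
    congr 1
    exact Subsingleton.elim _ _
  | k + 1, x, Ψ => by
    show mul k (fun i φ => φ (g (x i.succ))) (fun c' => Ψ (Fin.cons (g (x 0)) c')) = _
    rw [mul_point g k (fun i => x i.succ)]
    congr 1
    funext i
    refine Fin.cases ?_ (fun i => ?_) i <;> simp

/-- A linear functional. -/
def Lin (M : (Γ → ℝ) → ℝ) : Prop := ∀ (O : Type) [Fintype O] (a : O → ℝ) (ψ : O → Γ → ℝ),
  (M fun c => ∑ o, a o * ψ o c) = ∑ o, a o * M (ψ o)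

theorem lin_ls (G : List Γ) : Lin (ls G) := by
  intro O _ a ψ
  rw [ls_sum]
  exact Finset.sum_congr rfl fun o _ => ls_mul _ _ _

theorem lin_point (c : Γ) : Lin fun φ => φ c := fun _ _ _ _ => rfl

theorem mul_expand {O : Type} [Fintype O] (L : (Γ → ℝ) → ℝ) (w : O → ℝ)
    (M : O → (Γ → ℝ) → ℝ) (hM : ∀ o, Lin (M o)) (hL : ∀ φ, L φ = ∑ o, w o * M o φ) :
    ∀ (k : ℕ) (Ψ : (Fin k → Γ) → ℝ), mul k (fun _ => L) Ψ =
      ∑ o : Fin k → O, (∏ i, w (o i)) * mul k (fun i => M (o i)) Ψ
  | 0, Ψ => by simp [mul]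
  | k + 1, Ψ => by
    rw [← (Fin.consEquiv fun _ => O).sum_comp, Fintype.sum_prod_type]
    show L (fun c => mul k (fun _ => L) fun c' => Ψ (Fin.cons c c')) = _
    rw [hL]
    refine Finset.sum_congr rfl fun o _ => ?_
    have h : (fun c => mul k (fun _ => L) fun c' => Ψ (Fin.cons c c')) = fun c =>
        ∑ o' : Fin k → O, (∏ i, w (o' i)) * mul k (fun i => M (o' i))
          (fun c' => Ψ (Fin.cons c c')) :=
      funext fun c => mul_expand L w M hM hL k _
    rw [h, hM o, Finset.mul_sum]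
    refine Finset.sum_congr rfl fun o' _ => ?_
    rw [Fin.prod_univ_succ]
    show _ = w o * (∏ i, w (o' i)) * M o fun c => mul k (fun i => M (o' i))
      fun c' => Ψ (Fin.cons c c')
    ring

end mul

section fam

variable {α β S T : Type}

/-- The constraint of the product game. -/
def asm {k : ℕ} (c : Fin k → α × β × (S → T)) :
    (Fin k → α) × (Fin k → β) × ((Fin k → S) → (Fin k → T)) :=
  (fun i => (c i).1, fun i => (c i).2.1, fun s i => (c i).2.2 (s i))

theorem ls_prodF : ∀ (k : ℕ) (G : Fin k → PG α β S T)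
    (Φ : (Fin k → α) × (Fin k → β) × ((Fin k → S) → (Fin k → T)) → ℝ),
    ls (prodF k G) Φ = mul k (fun i => ls (G i)) fun c => Φ (asm c)
  | 0, G, Φ => by
    unfold prodF mul
    rw [ls_cons, ls_nil, add_zero]
    congr 1
    exact Subsingleton.elim _ _
  | k + 1, G, Φ => by
    unfold prodF mul
    rw [ls_prodE]
    refine ls_congr fun c _ => ?_
    rw [ls_prodF k]
    congr 1
    funext c'
    congr 1
    refine Prod.ext ?_ (Prod.ext ?_ ?_)
    · funext i
      refine Fin.cases ?_ (fun i => ?_) i <;> simp [asm, Fin.consEquiv]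
    · funext i
      refine Fin.cases ?_ (fun i => ?_) i <;> simp [asm, Fin.consEquiv]
    · funext s i
      refine Fin.cases ?_ (fun i => ?_) i <;> simp [asm, Fin.consEquiv, Fin.tail]

end fam

end Vale.Agent.P325.H290
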