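import Vale.Agent.P325.H290.Hidden
import Vale.Agent.P325.H290.Mul

/-!
# The outer game

The value of the outer game with shared advice tends to `0`.
-/

namespace Vale.Agent.P325.H290

open Finset Vale.Agent.Lib.PCP Vale.Agent.P333.NP Vale.Agent.P325.Star

section block

variable {ι C : Type} [Fintype ι] [AddCommGroup C] [Fintype C]

/-- The sum over the types. -/
theorem sum_Ty (f : Ty → ℝ) : ∑ τ, f τ = f .full + f .s1 + f .s2 + f .s3 + f .dr := by
  show ∑ τ ∈ ({.full, .s1, .s2, .s3, .dr} : Finset Ty), f τ = _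
  rw [Finset.sum_insert (by decide), Finset.sum_insert (by decide),
    Finset.sum_insert (by decide), Finset.sum_insert (by decide), Finset.sum_singleton]
  ring

/-- The configurations of a block. -/
abbrev Cfg (ι C : Type) := Ty × ι × (C × C)

/-- The probability of a configuration. -/
noncomputable def cw (β : ℝ) (x : Cfg ι C) : ℝ :=
  x.1.wt β / Fintype.card (ι × (C × C))

open Classical in
/-- The constraint of a configuration. -/
noncomputable def gc (q : ι → Eqn) (x : Cfg ι C) :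
    (ι × (C × C)) × (VB × (C × C)) × (F × F → F) :=
  ((x.2.1, x.1.lift x.2.2), (x.1.vb (q x.2.1), x.1.vis x.2.2),
    fun t => if x.2.2.1 = 0 then x.1.value (q x.2.1) t else 0)

/-- Hidden configurations. -/
def Hid (x : Cfg ι C) : Prop := x.1 ≠ .full ∧ x.2.2.1 = 0

omit [Fintype ι] [Fintype C] in
theorem gc_hid (q : ι → Eqn) (τ : Ty) (hτ : τ ≠ .full) (i : ι) (n : C) :
    gc q (τ, i, (0, n)) = hcon q τ i := by
  unfold gc hcon
  cases τ <;> simp_all [Ty.lift, Ty.vis]

theorem wt_nonneg {β : ℝ} (h0 : 0 ≤ β) (h1 : β ≤ 1) (τ : Ty) : 0 ≤ τ.wt β := by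
  cases τ <;> simp only [Ty.wt] <;> linarith

theorem sum_wt (β : ℝ) : ∑ τ : Ty, τ.wt β = 1 := by
  rw [sum_Ty]
  simp only [Ty.wt]
  ring

open Classical in
/-- The weights of the parts. -/
noncomputable def pw (β : ℝ) : Option (Cfg ι C) → ℝ
  | none => β / Fintype.card C
  | some x => if Hid x then 0 else cw β x

/-- The games of the parts. -/
noncomputable def pG (q : ι → Eqn) : Option (Cfg ι C) →
    PG (ι × (C × C)) (VB × (C × C)) (F × F) F
  | none => Gh C q
  | some x => [gc q x]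

/-- The norms of the parts. -/
noncomputable def pr (γ : ℝ) : Option (Cfg ι C) → ℝ
  | none => 1 - (γ / 3) ^ 2 / 24
  | some _ => 1

open Classical in
theorem sum_hid (β : ℝ) (q : ι → Eqn)
    (φ : (ι × (C × C)) × (VB × (C × C)) × (F × F → F) → ℝ) :
    ∑ x : Cfg ι C, (if Hid x then cw β x * φ (gc q x) else 0) =
      β / Fintype.card C * (ls (Gh C q) φ / (6 * Fintype.card ι)) := by
  have hC : (Fintype.card C : ℝ) ≠ 0 := by
    have : 0 < Fintype.card C := Fintype.card_pos
    positivity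
  have h1 : ∀ (τ : Ty) (i : ι), τ ≠ .full →
      ∑ n : C × C, (if Hid (τ, i, n) then cw β (τ, i, n) * φ (gc q (τ, i, n)) else 0) =
        τ.wt β / (Fintype.card ι * Fintype.card C) * φ (hcon q τ i) := by
    intro τ i hτ
    rw [Fintype.sum_prod_type]
    have h2 : ∀ n₁ : C, ∑ n₂ : C, (if Hid (τ, i, (n₁, n₂)) then
        cw β (τ, i, (n₁, n₂)) * φ (gc q (τ, i, (n₁, n₂))) else 0) =
        if n₁ = 0 then τ.wt β / (Fintype.card ι * Fintype.card C) * φ (hcon q τ i) else 0 := by
      intro n₁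
      split_ifs with h
      · subst h
        have h3 : ∀ n₂ : C, (if Hid (τ, i, ((0 : C), n₂)) then
            cw β (τ, i, ((0 : C), n₂)) * φ (gc q (τ, i, ((0 : C), n₂))) else 0) =
            τ.wt β / (Fintype.card ι * (Fintype.card C * Fintype.card C)) * φ (hcon q τ i) := by
          intro n₂
          rw [if_pos ⟨hτ, rfl⟩, gc_hid q τ hτ]
          simp [cw]
        rw [Finset.sum_congr rfl fun n₂ _ => h3 n₂, Finset.sum_const, Finset.card_univ,
          nsmul_eq_mul]
        field_simp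
      · refine Finset.sum_eq_zero fun n₂ _ => ?_
        rw [if_neg]
        rintro ⟨_, h4⟩
        exact h h4
    rw [Finset.sum_congr rfl fun n₁ _ => h2 n₁]
    simp
  have h0 : ∀ (i : ι), ∑ n : C × C, (if Hid ((Ty.full, i, n) : Cfg ι C) then
      cw β (Ty.full, i, n) * φ (gc q (Ty.full, i, n)) else 0) = 0 := by
    intro i
    refine Finset.sum_eq_zero fun n _ => ?_
    rw [if_neg]
    rintro ⟨h, _⟩
    exact h rfl
  have h5 : ∀ τ : Ty, τ ≠ .full → ∑ p : ι × (C × C),
      (if Hid (τ, p) then cw β (τ, p) * φ (gc q (τ, p)) else 0) =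
        τ.wt β / (Fintype.card ι * Fintype.card C) * ∑ i, φ (hcon q τ i) := by
    intro τ hτ
    rw [Fintype.sum_prod_type, Finset.mul_sum]
    exact Finset.sum_congr rfl fun i _ => h1 τ i hτ
  have h6 : ∑ p : ι × (C × C), (if Hid ((Ty.full, p) : Cfg ι C) then
      cw β (Ty.full, p) * φ (gc q (Ty.full, p)) else 0) = 0 := by
    rw [Fintype.sum_prod_type]
    exact Finset.sum_eq_zero fun i _ => h0 i
  rw [Fintype.sum_prod_type, sum_Ty, h5 .s1 (by decide), h5 .s2 (by decide), h5 .s3 (by decide),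
    h5 .dr (by decide), h6, ls_Gh]
  simp only [Ty.wt, Finset.sum_add_distrib, ← Finset.mul_sum]
  field_simp
  ring

/-- The decomposition of the law of a block. -/
theorem block_expand [Nonempty ι] (β : ℝ) (q : ι → Eqn)
    (φ : (ι × (C × C)) × (VB × (C × C)) × (F × F → F) → ℝ) :
    ∑ x : Cfg ι C, cw β x * φ (gc q x) =
      ∑ o : Option (Cfg ι C), pw β o / (pG q o).length * ls (pG q o) φ := by
  classical
  rw [Fintype.sum_option]
  have h1 : pw β (none : Option (Cfg ι C)) / (pG q (none : Option (Cfg ι C))).length *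
      ls (pG q (none : Option (Cfg ι C))) φ =
      ∑ x : Cfg ι C, (if Hid x then cw β x * φ (gc q x) else 0) := by
    rw [sum_hid]
    show β / Fintype.card C / (Gh C q).length * ls (Gh C q) φ = _
    rw [Gh_length]
    push_cast
    ring
  rw [h1, ← Finset.sum_add_distrib]
  refine Finset.sum_congr rfl fun x _ => ?_
  show _ = _ + (if Hid x then 0 else cw β x) / ([gc q x].length : ℕ) * ls [gc q x] φ
  rw [ls_cons, ls_nil, add_zero]
  split_ifs <;> simp

theorem pw_nonneg {β : ℝ} (h0 : 0 ≤ β) (h1 : β ≤ 1) (o : Option (Cfg ι C)) : 0 ≤ pw β o := by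
  classical
  cases o with
  | none => exact div_nonneg h0 (Nat.cast_nonneg _)
  | some x =>
    show 0 ≤ if Hid x then 0 else cw β x
    split_ifs
    · exact le_refl _
    · exact div_nonneg (wt_nonneg h0 h1 _) (Nat.cast_nonneg _)

theorem sum_cw [Nonempty ι] (β : ℝ) : ∑ x : Cfg ι C, cw β x = 1 := by
  unfold cw
  rw [Fintype.sum_prod_type]
  simp only [Finset.sum_const, Finset.card_univ, nsmul_eq_mul]
  have h : (Fintype.card (ι × (C × C)) : ℝ) ≠ 0 := by
    have : 0 < Fintype.card (ι × (C × C)) := Fintype.card_pos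
    positivity
  simp only [mul_div_cancel₀ _ h]
  exact sum_wt β

theorem sum_pw [Nonempty ι] (β : ℝ) : ∑ o : Option (Cfg ι C), pw β o = 1 := by
  obtain ⟨q⟩ : Nonempty (ι → Eqn) := ⟨fun _ => ((0, 0, 0), false)⟩
  have h := block_expand (C := C) β q fun _ => 1
  simp only [mul_one] at h
  rw [sum_cw] at h
  rw [h]
  refine Finset.sum_congr rfl fun o _ => ?_
  rw [ls_const, mul_one]
  have hl : ((pG q o).length : ℝ) ≠ 0 := by
    cases o with
    | none =>
      show ((Gh C q).length : ℝ) ≠ 0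
      rw [Gh_length]
      have : 0 < Fintype.card ι := Fintype.card_pos
      positivity
    | some x => simp [pG]
  field_simp

/-- The total weight. -/
theorem sum_pw_sqrt [Nonempty ι] (β γ : ℝ) : ∑ o : Option (Cfg ι C), pw β o * √(pr γ o) =
    1 - β / Fintype.card C * (1 - √(1 - (γ / 3) ^ 2 / 24)) := by
  have h := sum_pw (ι := ι) (C := C) β
  rw [Fintype.sum_option] at h ⊢
  have h1 : ∀ x : Cfg ι C, pw β (some x) * √(pr γ (some x)) = pw β (some x) := by
    intro x
    simp [pr]
  rw [Finset.sum_congr rfl fun x _ => h1 x]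
  have h2 : pw β (none : Option (Cfg ι C)) = β / Fintype.card C := rfl
  have h3 : pr γ (none : Option (Cfg ι C)) = 1 - (γ / 3) ^ 2 / 24 := rfl
  rw [h2] at h
  rw [h2, h3]
  linear_combination h

omit [Fintype ι] [AddCommGroup C] [Fintype C] in
theorem pr_nonneg {γ : ℝ} (h0 : 0 < γ) (h1 : γ ≤ 1) (o : Option (Cfg ι C)) : 0 ≤ pr γ o := by
  cases o with
  | none =>
    show 0 ≤ 1 - (γ / 3) ^ 2 / 24
    nlinarith
  | some x => exact zero_le_one

omit [Fintype C] in
theorem pG_nrm [Nonempty ι] [DecidableEq ι] [DecidableEq VB] [DecidableEq C] {q : ι → Eqn}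
    {γ : ℝ} (hγ : 0 < γ) (hγ1 : γ ≤ 1)
    (hq : ∀ x : ℕ → Bool, γ * Fintype.card ι ≤ #{i | (q i).Viol x}) (o : Option (Cfg ι C)) :
    Nrm (pG q o) (pr γ o) := by
  cases o with
  | none => exact Gh_nrm hγ hγ1 hq
  | some x =>
    intro f hf
    refine (N_le_Tn _ hf).trans (le_of_eq ?_)
    show _ = 1 * _
    rw [one_mul]

end block

section strat

variable {ι C : Type} [AddCommGroup C] {k : ℕ}

/-- The strategy of the first prover. -/
def stA (sU : (Fin k → ι) → (Fin k → C × C) → (Fin k → F × F)) (U : Fin k → ι × (C × C)) :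
    Fin k → F × F :=
  sU (fun i => (U i).1) fun i => (U i).2

open Classical in
/-- The strategy of the second prover: `0` unless the block is a single variable and nothing is
visible. -/
noncomputable def stB (sV : (Fin k → VB) → (Fin k → C × C) → (Fin k → F))
    (V : Fin k → VB × (C × C)) : Fin k → F :=
  fun i => if (∃ x, (V i).1 = .single x) ∧ (V i).2.1 = 0 then
    sV (fun i => (V i).1) (fun i => (V i).2) i else 0

theorem isS_iff (τ : Ty) (e : Eqn) : τ.isS ↔ ∃ x, τ.vb e = .single x := by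
  cases τ <;> simp [Ty.isS, Ty.vb]

theorem vis_fst {τ : Ty} (h : τ.isS) (n : C × C) : (τ.vis n).1 = n.1 := by
  rcases h with rfl | rfl | rfl <;> rfl

theorem value_not {τ : Ty} (h : ¬ τ.isS) (e : Eqn) (t : F × F) : τ.value e t = 0 := by
  cases τ <;> simp_all [Ty.isS, Ty.value]

theorem win_sat {q : ι → Eqn} {sU : (Fin k → ι) → (Fin k → C × C) → (Fin k → F × F)}
    {sV : (Fin k → VB) → (Fin k → C × C) → (Fin k → F)} (x : Fin k → Cfg ι C)
    (h : Win q sU sV (fun i => (x i).2.1) (fun i => (x i).1) fun i => (x i).2.2) :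
    (asm fun i => gc q (x i)).2.2 (stA sU (asm fun i => gc q (x i)).1) =
      stB sV (asm fun i => gc q (x i)).2.1 := by
  classical
  funext i
  show (if (x i).2.2.1 = 0 then (x i).1.value (q (x i).2.1)
      (sU (fun i => (x i).2.1) (fun i => (x i).1.lift (x i).2.2) i) else 0) =
    if (∃ y, (x i).1.vb (q (x i).2.1) = .single y) ∧ ((x i).1.vis (x i).2.2).1 = 0 then
      sV (fun i => (x i).1.vb (q (x i).2.1)) (fun i => (x i).1.vis (x i).2.2) i else 0
  by_cases hS : (x i).1.isS
  · have h2 : sV (fun i => (x i).1.vb (q (x i).2.1)) (fun i => (x i).1.vis (x i).2.2) i =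
        (x i).1.value (q (x i).2.1)
          (sU (fun i => (x i).2.1) (fun i => (x i).1.lift (x i).2.2) i) := h i hS
    rw [vis_fst hS]
    by_cases h3 : (x i).2.2.1 = 0
    · rw [if_pos h3, if_pos ⟨(isS_iff _ _).1 hS, h3⟩, h2]
    · rw [if_neg h3, if_neg fun h4 => h3 h4.2]
  · rw [value_not hS, ite_self, if_neg fun h4 => hS ((isS_iff _ _).2 h4.1)]

end strat

section main

variable {ι C : Type} [Fintype ι] [AddCommGroup C] [Fintype C] {k : ℕ}

/-- The value is at most the weighted number of satisfied product constraints. -/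
theorem win_le [Nonempty ι] {β : ℝ} (h0 : 0 ≤ β) (h1 : β ≤ 1) (q : ι → Eqn)
    (sU : (Fin k → ι) → (Fin k → C × C) → (Fin k → F × F))
    (sV : (Fin k → VB) → (Fin k → C × C) → (Fin k → F)) :
    ∑ τ : Fin k → Ty, wts β τ *
      (Nat.card {p : (Fin k → ι) × (Fin k → C × C) | Win q sU sV p.1 τ p.2} /
        Fintype.card ((Fin k → ι) × (Fin k → C × C)) : ℝ) ≤
    ∑ x : Fin k → Cfg ι C, (∏ i, cw β (x i)) *
      (if (asm fun i => gc q (x i)).2.2 (stA sU (asm fun i => gc q (x i)).1) =
        stB sV (asm fun i => gc q (x i)).2.1 then (1 : ℝ) else 0) := by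
  classical
  let e : (Fin k → Cfg ι C) ≃ (Fin k → Ty) × (Fin k → ι) × (Fin k → C × C) :=
    { toFun := fun x => (fun i => (x i).1, fun i => (x i).2.1, fun i => (x i).2.2)
      invFun := fun y => fun i => (y.1 i, y.2.1 i, y.2.2 i)
      left_inv := fun x => rfl
      right_inv := fun y => rfl }
  rw [← e.symm.sum_comp, Fintype.sum_prod_type]
  refine Finset.sum_le_sum fun τ _ => ?_
  have h2 : (Nat.card {p : (Fin k → ι) × (Fin k → C × C) | Win q sU sV p.1 τ p.2} : ℝ) =
      ∑ p : (Fin k → ι) × (Fin k → C × C), if Win q sU sV p.1 τ p.2 then (1 : ℝ) else 0 := by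
    rw [Finset.sum_boole, Nat.card_eq_fintype_card, Fintype.card_subtype]
    rfl
  rw [h2, Finset.sum_div, Finset.mul_sum]
  refine Finset.sum_le_sum fun p _ => ?_
  have h3 : ∏ i, cw β ((e.symm (τ, p)) i) =
      wts β τ / Fintype.card ((Fin k → ι) × (Fin k → C × C)) := by
    show ∏ i, ((τ i).wt β / Fintype.card (ι × (C × C))) = _
    rw [Finset.prod_div_distrib, Finset.prod_const, Finset.card_univ, Fintype.card_fin]
    congr 1
    simp only [Fintype.card_prod, Fintype.card_fun, Fintype.card_fin]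
    push_cast
    ring
  rw [h3, div_eq_mul_inv, div_eq_mul_inv]
  have h4 : 0 ≤ wts β τ * (Fintype.card ((Fin k → ι) × (Fin k → C × C)) : ℝ)⁻¹ :=
    mul_nonneg (Finset.prod_nonneg fun i _ => wt_nonneg h0 h1 _)
      (inv_nonneg.2 (Nat.cast_nonneg _))
  have h5 : (if Win q sU sV p.1 τ p.2 then (1 : ℝ) else 0) ≤
      if (asm fun i => gc q ((e.symm (τ, p)) i)).2.2
          (stA sU (asm fun i => gc q ((e.symm (τ, p)) i)).1) =
        stB sV (asm fun i => gc q ((e.symm (τ, p)) i)).2.1 then (1 : ℝ) else 0 := by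
    by_cases h6 : Win q sU sV p.1 τ p.2
    · rw [if_pos h6, if_pos (win_sat (e.symm (τ, p)) h6)]
    · rw [if_neg h6]
      split_ifs <;> norm_num
  calc wts β τ * ((if Win q sU sV p.1 τ p.2 then (1 : ℝ) else 0) *
        (Fintype.card ((Fin k → ι) × (Fin k → C × C)) : ℝ)⁻¹)
      = wts β τ * (Fintype.card ((Fin k → ι) × (Fin k → C × C)) : ℝ)⁻¹ *
        (if Win q sU sV p.1 τ p.2 then (1 : ℝ) else 0) := by ring
    _ ≤ _ := mul_le_mul_of_nonneg_left h5 h4

open Classical in
/-- The contribution of a tuple of parts. -/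
theorem part_le [Nonempty ι] {β γ : ℝ} (h0 : 0 ≤ β) (h1 : β ≤ 1) (hγ : 0 < γ) (hγ1 : γ ≤ 1)
    {q : ι → Eqn} (hq : ∀ x : ℕ → Bool, γ * Fintype.card ι ≤ #{i | (q i).Viol x})
    (a : (Fin k → ι × (C × C)) → (Fin k → F × F)) (b : (Fin k → VB × (C × C)) → (Fin k → F))
    (o : Fin k → Option (Cfg ι C)) :
    (∏ i, (pw β (o i) / (pG q (o i)).length)) *
      (ls (prodF k fun i => pG q (o i)) fun c =>
        if c.2.2 (a c.1) = b c.2.1 then (1 : ℝ) else 0) ≤
      ∏ i, (pw β (o i) * √(pr γ (o i))) := by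
  have h4 : Nrm (prodF k fun i => pG q (o i)) (∏ i, pr γ (o i)) :=
    prodF_nrm k _ _ (fun i => pr_nonneg hγ hγ1 _) fun i => pG_nrm hγ hγ1 hq _
  have h5 : ((prodF k fun i => pG q (o i)).sat a b : ℝ) ≤
      √(∏ i, pr γ (o i)) * ((prodF k fun i => pG q (o i)).length : ℝ) := by
    convert Nrm.sound _ h4 a b
  rw [sat_eq, prodF_length, Real.sqrt_prod _ fun i _ => pr_nonneg hγ hγ1 _] at h5
  have h6 : 0 ≤ ∏ i, (pw β (o i) / (pG q (o i)).length) :=
    Finset.prod_nonneg fun i _ => div_nonneg (pw_nonneg h0 h1 _) (Nat.cast_nonneg _)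
  have hl : ∀ o : Option (Cfg ι C), ((pG q o).length : ℝ) ≠ 0 := by
    intro o
    cases o with
    | none =>
      show ((Gh C q).length : ℝ) ≠ 0
      rw [Gh_length]
      have : 0 < Fintype.card ι := Fintype.card_pos
      positivity
    | some x => simp [pG]
  calc _ ≤ (∏ i, (pw β (o i) / (pG q (o i)).length)) *
        ((∏ i, √(pr γ (o i))) * ((∏ i, (pG q (o i)).length : ℕ) : ℝ)) := by
        refine mul_le_mul_of_nonneg_left (le_trans (le_of_eq ?_) h5) h6
        refine ls_congr fun c _ => ?_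
        congr
    _ = _ := by
        push_cast
        rw [← Finset.prod_mul_distrib, ← Finset.prod_mul_distrib]
        refine Finset.prod_congr rfl fun i _ => ?_
        have := hl (o i)
        field_simp

/-- The bound for the value. -/
theorem value_le [Nonempty ι] {β γ : ℝ} (h0 : 0 ≤ β) (h1 : β ≤ 1) (hγ : 0 < γ) (hγ1 : γ ≤ 1)
    {q : ι → Eqn} (hq : ∀ x : ℕ → Bool, γ * Fintype.card ι ≤ #{i | (q i).Viol x})
    (sU : (Fin k → ι) → (Fin k → C × C) → (Fin k → F × F))
    (sV : (Fin k → VB) → (Fin k → C × C) → (Fin k → F)) :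
    ∑ τ : Fin k → Ty, wts β τ *
      (Nat.card {p : (Fin k → ι) × (Fin k → C × C) | Win q sU sV p.1 τ p.2} /
        Fintype.card ((Fin k → ι) × (Fin k → C × C)) : ℝ) ≤
    (1 - β / Fintype.card C * (1 - √(1 - (γ / 3) ^ 2 / 24))) ^ k := by
  classical
  refine (win_le h0 h1 q sU sV).trans ?_
  have h2 : ∑ x : Fin k → Cfg ι C, (∏ i, cw β (x i)) *
      (if (asm fun i => gc q (x i)).2.2 (stA sU (asm fun i => gc q (x i)).1) =
        stB sV (asm fun i => gc q (x i)).2.1 then (1 : ℝ) else 0) =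
      mul k (fun _ φ => ∑ x : Cfg ι C, cw β x * φ (gc q x)) fun c =>
        if (asm c).2.2 (stA sU (asm c).1) = stB sV (asm c).2.1 then (1 : ℝ) else 0 := by
    rw [mul_expand (fun φ => ∑ x : Cfg ι C, cw β x * φ (gc q x)) (cw β)
      (fun x φ => φ (gc q x)) (fun x => lin_point _) (fun φ => rfl)]
    refine Finset.sum_congr rfl fun x _ => ?_
    rw [mul_point (gc q) k x]
  rw [h2, mul_expand (fun φ => ∑ x : Cfg ι C, cw β x * φ (gc q x))
    (fun o => pw β o / (pG q o).length) (fun o => ls (pG q o)) (fun o => lin_ls _)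
    (fun φ => block_expand β q φ)]
  have h3 : ∀ o : Fin k → Option (Cfg ι C),
      (∏ i, (pw β (o i) / (pG q (o i)).length)) *
        mul k (fun i => ls (pG q (o i))) (fun c =>
          if (asm c).2.2 (stA sU (asm c).1) = stB sV (asm c).2.1 then (1 : ℝ) else 0) ≤
      ∏ i, (pw β (o i) * √(pr γ (o i))) := by
    intro o
    rw [← ls_prodF k (fun i => pG q (o i))
      (fun c => if c.2.2 (stA sU c.1) = stB sV c.2.1 then (1 : ℝ) else 0)]
    refine le_trans (le_of_eq ?_) (part_le h0 h1 hγ hγ1 hq (stA sU) (stB sV) o)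
    congr
  refine (Finset.sum_le_sum fun o _ => h3 o).trans (le_of_eq ?_)
  rw [← sum_pw_sqrt (ι := ι) (C := C) β γ, Fintype.sum_pow]

end main

/-- The value of the outer game with shared advice tends to `0`. -/
theorem outerBound : OuterBound := by
  intro γ ν hγ hν r
  set γ' : ℝ := min γ 1 with hγ'
  have hγ0 : 0 < γ' := lt_min hγ one_pos
  have hγ1 : γ' ≤ 1 := min_le_right _ _
  set s : ℝ := 1 - √(1 - (γ' / 3) ^ 2 / 24) with hs
  have hs0 : 0 < s := by
    have : √(1 - (γ' / 3) ^ 2 / 24) < 1 := by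
      rw [Real.sqrt_lt' one_pos]
      nlinarith
    rw [hs]
    linarith
  have hs1 : s ≤ 1 := by
    have := Real.sqrt_nonneg (1 - (γ' / 3) ^ 2 / 24)
    rw [hs]
    linarith
  refine ⟨(r + 1) * |Real.log ν| / s + 1, by positivity, ?_⟩
  intro C _ _ hC k β hβ0 hβ1 hk ι _ _ q hq sU sV
  have hc : 0 < Fintype.card C := Fintype.card_pos
  have hc' : (1 : ℝ) ≤ Fintype.card C := by exact_mod_cast hc
  have hr : (Fintype.card C : ℝ) ≤ r := by exact_mod_cast hC
  have hq' : ∀ x : ℕ → Bool, γ' * Fintype.card ι ≤ #{i | (q i).Viol x} := fun x =>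
    (mul_le_mul_of_nonneg_right (min_le_left _ _) (Nat.cast_nonneg _)).trans (hq x)
  refine (value_le hβ0.le hβ1.le hγ0 hγ1 hq' sU sV).trans ?_
  rw [← hs]
  have h1 : β / Fintype.card C * s ≤ 1 := by
    have h2 : β / Fintype.card C ≤ 1 := by
      rw [div_le_one (by positivity)]
      linarith
    have h3 : 0 ≤ β / Fintype.card C := by positivity
    nlinarith
  have h4 : (1 - β / Fintype.card C * s) ^ k ≤ Real.exp (-(β / Fintype.card C * s)) ^ k :=
    pow_le_pow_left₀ (by linarith) (Real.one_sub_le_exp_neg _) k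
  refine h4.trans ?_
  rw [← Real.exp_nat_mul]
  have h5 : |Real.log ν| ≤ k * (β / Fintype.card C * s) := by
    have h6 : k * (β / Fintype.card C * s) = (k * β) * s / Fintype.card C := by ring
    rw [h6, le_div_iff₀ (by positivity)]
    have h7 : |Real.log ν| * Fintype.card C ≤ |Real.log ν| * (r + 1) :=
      mul_le_mul_of_nonneg_left (by linarith) (abs_nonneg _)
    have h8 : (r + 1) * |Real.log ν| / s ≤ k * β := by linarith
    rw [div_le_iff₀ hs0] at h8
    linarith
  calc Real.exp (k * -(β / Fintype.card C * s)) ≤ Real.exp (Real.log ν) := by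
        apply Real.exp_le_exp.2
        have := neg_abs_le (Real.log ν)
        linarith
    _ = ν := Real.exp_log hν

end Vale.Agent.P325.H290
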