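import Vale.Agent.P325.H290.Prod
import Vale.Agent.P325.Star.Blocks

/-!
# The game of a hidden block

A hidden block is the clause-variable game of a list of equations together with a trivial
question; its norm is smaller than `1`.
-/

namespace Vale.Agent.P325.H290

open Finset Vale.Agent.Lib.PCP Vale.Agent.P333.NP Vale.Agent.P325.Star

section triv

variable {α β S T : Type} [DecidableEq α] [DecidableEq β] [Fintype S] [Fintype T] [DecidableEq T]

/-- The game with a trivial right question `v₀`, whose only answer is `t₀`. -/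
def trivAt (v₀ : β) (t₀ : T) (G : PG α β S T) : PG α β S T :=
  G ++ G.map fun c => (c.1, v₀, fun _ => t₀)

omit [DecidableEq α] [DecidableEq β] [Fintype S] [Fintype T] [DecidableEq T] in
theorem trivAt_length (v₀ : β) (t₀ : T) (G : PG α β S T) :
    (trivAt v₀ t₀ G).length = 2 * G.length := by
  simp [trivAt]
  ring

omit [DecidableEq α] [DecidableEq β] [Fintype S] [Fintype T] [DecidableEq T] in
theorem ls_trivAt (v₀ : β) (t₀ : T) (G : PG α β S T) (φ : α × β × (S → T) → ℝ) :
    ls (trivAt v₀ t₀ G) φ = ls G φ + ls G fun c => φ (c.1, v₀, fun _ => t₀) := by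
  unfold trivAt
  rw [ls_append, ls_map]

variable {v₀ : β} {t₀ : T} {G : PG α β S T}

omit [DecidableEq α] [Fintype T] in
theorem Av_trivAt (f : α → S → ℝ) {v : β} (h : v ≠ v₀) (t : T) :
    Av (trivAt v₀ t₀ G) f v t = Av G f v t := by
  unfold Av dg
  rw [ls_trivAt, ls_trivAt]
  simp only [if_neg (Ne.symm h), ls_zero, add_zero]

omit [DecidableEq α] [Fintype T] in
theorem Av_trivAt_self (hv : ∀ c ∈ G, c.2.1 ≠ v₀) (f : α → S → ℝ) (t : T) :
    Av (trivAt v₀ t₀ G) f v₀ t =
      if t = t₀ then (ls G fun c => ∑ s, f c.1 s) / G.length else 0 := by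
  unfold Av dg
  rw [ls_trivAt, ls_trivAt]
  have h1 : (ls G fun c => if c.2.1 = v₀ then xf f c t else 0) = 0 := by
    rw [ls_congr (ψ := fun _ => 0) fun c hc => if_neg (hv c hc), ls_zero]
  have h2 : (ls G fun c => if c.2.1 = v₀ then (1 : ℝ) else 0) = 0 := by
    rw [ls_congr (ψ := fun _ => 0) fun c hc => if_neg (hv c hc), ls_zero]
  rw [h1, h2]
  simp only [if_true, zero_add, ls_const, mul_one]
  split_ifs with h
  · subst h
    congr 1
    refine ls_congr fun c _ => ?_
    simp [xf]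
  · have : ∀ c ∈ G, xf f (c.1, v₀, fun _ => t₀) t = (0 : ℝ) := by
      intro c _
      unfold xf
      simp [Ne.symm h]
    rw [ls_congr this, ls_zero, zero_div]

omit [DecidableEq α] in
theorem N_trivAt (hv : ∀ c ∈ G, c.2.1 ≠ v₀) (f : α → S → ℝ) (hne : G ≠ []) :
    N (trivAt v₀ t₀ G) f = N G f + (ls G fun c => ∑ s, f c.1 s) ^ 2 / G.length := by
  have hn : (0 : ℝ) < G.length := by
    have := List.length_pos_iff.2 hne
    exact_mod_cast this
  unfold N
  rw [ls_trivAt]
  congr 1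
  · refine ls_congr fun c hc => Finset.sum_congr rfl fun t _ => ?_
    rw [Av_trivAt f (hv c hc)]
  · show (ls G fun _ => ∑ t, Av (trivAt v₀ t₀ G) f v₀ t ^ 2) = _
    rw [ls_const]
    have : ∀ t : T, Av (trivAt v₀ t₀ G) f v₀ t ^ 2 =
        if t = t₀ then ((ls G fun c => ∑ s, f c.1 s) / G.length) ^ 2 else 0 := by
      intro t
      rw [Av_trivAt_self hv]
      split_ifs <;> simp
    rw [Finset.sum_congr rfl fun t _ => this t]
    simp only [Finset.sum_ite_eq', Finset.mem_univ, if_true]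
    field_simp

omit [DecidableEq α] [DecidableEq β] [Fintype T] [DecidableEq T] in
theorem Tn_trivAt (f : α → S → ℝ) : Tn (trivAt v₀ t₀ G) f = 2 * Tn G f := by
  unfold Tn
  rw [ls_trivAt]
  ring

theorem trivAt_nrm [Nonempty S] [Nonempty T] (hv : ∀ c ∈ G, c.2.1 ≠ v₀) {γ : ℝ} (hγ : 0 < γ)
    (hγ1 : γ ≤ 1) (hne : G ≠ []) (hG : G.Sound (1 - γ)) :
    Nrm (trivAt v₀ t₀ G) (1 - γ ^ 2 / 24) := by
  intro f hf
  rw [N_trivAt hv f hne, Tn_trivAt]
  refine (base G hγ hγ1 hne hG hf).trans (le_of_eq ?_)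
  ring

end triv

section clause

variable {ι C : Type} [Fintype ι] [Zero C]

/-- The constraint of the block type `τ` and the equation `i` when nothing is visible. -/
def hcon (q : ι → Eqn) (τ : Ty) (i : ι) : (ι × (C × C)) × (VB × (C × C)) × (F × F → F) :=
  ((i, 0, 0), (τ.vb (q i), 0, 0), fun t => τ.value (q i) t)

/-- The clause-variable game. -/
noncomputable def Gcv (C : Type) [Zero C] (q : ι → Eqn) :
    PG (ι × (C × C)) (VB × (C × C)) (F × F) F :=
  (univ : Finset ι).toList.flatMap fun i => [hcon q .s1 i, hcon q .s2 i, hcon q .s3 i]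

/-- The game of a hidden block. -/
noncomputable def Gh (C : Type) [Zero C] (q : ι → Eqn) :
    PG (ι × (C × C)) (VB × (C × C)) (F × F) F :=
  trivAt (.dropped, 0, 0) 0 (Gcv C q)

theorem ls_toList {ι : Type} (s : Finset ι) (φ : ι → ℝ) : ls s.toList φ = ∑ i ∈ s, φ i := by
  unfold ls
  exact Finset.sum_map_toList s φ

theorem ls_Gcv (q : ι → Eqn) (φ : (ι × (C × C)) × (VB × (C × C)) × (F × F → F) → ℝ) :
    ls (Gcv C q) φ = ∑ i, (φ (hcon q .s1 i) + φ (hcon q .s2 i) + φ (hcon q .s3 i)) := by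
  unfold Gcv
  rw [ls_flatMap, ls_toList]
  refine Finset.sum_congr rfl fun i _ => ?_
  simp only [ls_cons, ls_nil]
  ring

theorem Gcv_length (q : ι → Eqn) : (Gcv C q).length = 3 * Fintype.card ι := by
  unfold Gcv
  rw [List.length_flatMap]
  simp
  ring

theorem ls_Gh (q : ι → Eqn) (φ : (ι × (C × C)) × (VB × (C × C)) × (F × F → F) → ℝ) :
    ls (Gh C q) φ = ∑ i, (φ (hcon q .s1 i) + φ (hcon q .s2 i) + φ (hcon q .s3 i) +
      3 * φ (hcon q .dr i)) := by
  unfold Gh
  rw [ls_trivAt, ls_Gcv, ls_Gcv, ← Finset.sum_add_distrib]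
  refine Finset.sum_congr rfl fun i _ => ?_
  have : ∀ τ : Ty, φ ((hcon (C := C) q τ i).1, (VB.dropped, 0, 0), fun _ => 0) =
      φ (hcon q .dr i) := fun τ => rfl
  rw [this, this, this]
  ring

theorem Gh_length (q : ι → Eqn) : (Gh C q).length = 6 * Fintype.card ι := by
  unfold Gh
  rw [trivAt_length, Gcv_length]
  ring

theorem Gcv_ne [Nonempty ι] (q : ι → Eqn) : Gcv C q ≠ [] := by
  intro h
  have h1 := Gcv_length (C := C) q
  rw [h, List.length_nil] at h1
  have := Fintype.card_pos (α := ι)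
  omega

theorem Gcv_right (q : ι → Eqn) : ∀ c ∈ Gcv C q, c.2.1 ≠ ((.dropped, 0, 0) : VB × (C × C)) := by
  intro c hc
  unfold Gcv at hc
  rw [List.mem_flatMap] at hc
  obtain ⟨i, _, hi⟩ := hc
  simp only [List.mem_cons, List.not_mem_nil, or_false] at hi
  rcases hi with rfl | rfl | rfl <;>
  · intro h
    simp [hcon, Ty.vb] at h

theorem three (t₁ t₂ : F) (c : Bool) :
    xor (xor (decide (t₁ = 1)) (decide (t₂ = 1)))
      (decide (t₁ + t₂ + (if c then 1 else 0) = 1)) = c := by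
  revert t₁ t₂ c
  decide

theorem Gcv_sound {q : ι → Eqn} {γ : ℝ}
    (hq : ∀ x : ℕ → Bool, γ * Fintype.card ι ≤ #{i | (q i).Viol x}) :
    (Gcv C q).Sound (1 - γ / 3) := by
  intro a b
  rw [sat_eq, ls_Gcv, Gcv_length]
  have h1 := hq fun v => decide (b (.single v, 0, 0) = 1)
  have h2 : ∀ i, ((if (hcon (C := C) q .s1 i).2.2 (a (hcon (C := C) q .s1 i).1) =
        b (hcon q .s1 i).2.1 then (1 : ℝ) else 0) +
      (if (hcon (C := C) q .s2 i).2.2 (a (hcon (C := C) q .s2 i).1) =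
        b (hcon q .s2 i).2.1 then (1 : ℝ) else 0) +
      (if (hcon (C := C) q .s3 i).2.2 (a (hcon (C := C) q .s3 i).1) =
        b (hcon q .s3 i).2.1 then (1 : ℝ) else 0)) ≤
      3 - if (q i).Viol fun v => decide (b (.single v, 0, 0) = 1) then (1 : ℝ) else 0 := by
    intro i
    split_ifs with e1 e2 e3 e4 e4 e3 e4 e4 e2 e3 e4 e4 e3 e4 e4 <;> norm_num
    apply e4
    simp only [hcon, Ty.vb, Ty.value] at e1 e2 e3
    show xor (xor (decide (b (.single (q i).1.1, 0, 0) = 1))
      (decide (b (.single (q i).1.2.1, 0, 0) = 1)))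
      (decide (b (.single (q i).1.2.2, 0, 0) = 1)) = (q i).2
    rw [← e1, ← e2, ← e3]
    exact three _ _ _
  refine (Finset.sum_le_sum fun i _ => h2 i).trans ?_
  rw [Finset.sum_sub_distrib, Finset.sum_const, Finset.card_univ, Finset.sum_boole]
  push_cast
  rw [nsmul_eq_mul]
  linarith

/-- The norm of the game of a hidden block. -/
theorem Gh_nrm [Nonempty ι] [DecidableEq ι] [DecidableEq VB] [DecidableEq C] {q : ι → Eqn}
    {γ : ℝ} (hγ : 0 < γ) (hγ1 : γ ≤ 1)
    (hq : ∀ x : ℕ → Bool, γ * Fintype.card ι ≤ #{i | (q i).Viol x}) :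
    Nrm (Gh C q) (1 - (γ / 3) ^ 2 / 24) :=
  trivAt_nrm (Gcv_right q) (by positivity) (by linarith) (Gcv_ne q) (Gcv_sound hq)

end clause

end Vale.Agent.P325.H290
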