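import Mathlib
import Vale.Agent.P333.NP.Par

/-!
# Products of projection games over finite families

The norm of `Vale.Agent.P333.NP.Par` is multiplicative for products of games on arbitrary types,
in particular for products of a family of games indexed by `Fin k`.
-/

namespace Vale.Agent.P325.H290

open Finset Vale.Agent.Lib.PCP Vale.Agent.P333.NP

section prod

variable {α β S T α' β' S' T' α₂ β₂ S₂ T₂ : Type}

/-- The product of two games, along identifications of the product types. -/
def prodE (eα : α × α' ≃ α₂) (eβ : β × β' ≃ β₂) (eS : S × S' ≃ S₂) (eT : T × T' ≃ T₂)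
    (G : PG α β S T) (H : PG α' β' S' T') : PG α₂ β₂ S₂ T₂ :=
  G.flatMap fun c => H.map fun d => (eα (c.1, d.1), eβ (c.2.1, d.2.1),
    fun x => eT (c.2.2 (eS.symm x).1, d.2.2 (eS.symm x).2))

variable (eα : α × α' ≃ α₂) (eβ : β × β' ≃ β₂) (eS : S × S' ≃ S₂) (eT : T × T' ≃ T₂)
  (G : PG α β S T) (H : PG α' β' S' T')

theorem ls_prodE (φ : α₂ × β₂ × (S₂ → T₂) → ℝ) : ls (prodE eα eβ eS eT G H) φ =
    ls G fun c => ls H fun d => φ (eα (c.1, d.1), eβ (c.2.1, d.2.1),
      fun x => eT (c.2.2 (eS.symm x).1, d.2.2 (eS.symm x).2)) := by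
  unfold prodE
  rw [ls_flatMap]
  refine ls_congr fun c _ => ?_
  rw [ls_map]

theorem prodE_length : (prodE eα eβ eS eT G H).length = G.length * H.length := by
  unfold prodE
  rw [List.length_flatMap]
  simp

variable [DecidableEq β] [DecidableEq β'] [DecidableEq β₂]
  [Fintype S] [Fintype S'] [Fintype S₂] [Fintype T] [Fintype T'] [Fintype T₂]
  [DecidableEq T] [DecidableEq T'] [DecidableEq T₂]

omit [Fintype S] [Fintype S'] [Fintype S₂] [Fintype T] [Fintype T'] [Fintype T₂]
  [DecidableEq T] [DecidableEq T'] [DecidableEq T₂] in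
theorem dg_prodE (v : β) (v' : β') :
    dg (prodE eα eβ eS eT G H) (eβ (v, v')) = dg G v * dg H v' := by
  unfold dg
  rw [ls_prodE]
  have h1 : ∀ c ∈ G, (ls H fun d => if eβ (c.2.1, d.2.1) = eβ (v, v') then (1 : ℝ) else 0) =
      (ls H fun d => if d.2.1 = v' then (1 : ℝ) else 0) * (if c.2.1 = v then 1 else 0) := by
    intro c _
    by_cases h : c.2.1 = v
    · rw [if_pos h, mul_one]
      refine ls_congr fun d _ => ?_
      by_cases h' : d.2.1 = v'
      · rw [if_pos h', if_pos (by rw [h, h'])]
      · rw [if_neg h', if_neg]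
        intro h2
        have := eβ.injective h2
        simp only [Prod.mk.injEq] at this
        exact h' this.2
    · rw [if_neg h, mul_zero]
      have h3 : ∀ d ∈ H, (if eβ (c.2.1, d.2.1) = eβ (v, v') then (1 : ℝ) else 0) = 0 := by
        intro d _
        rw [if_neg]
        intro h2
        have := eβ.injective h2
        simp only [Prod.mk.injEq] at this
        exact h this.1
      rw [ls_congr h3, ls_zero]
  rw [ls_congr h1, ls_mul, mul_comm]

/-- The inner function. -/
def innE (f : α₂ → S₂ → ℝ) (u : α) (s : S) : α' → S' → ℝ :=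
  fun u' s' => f (eα (u, u')) (eS (s, s'))

omit [DecidableEq β] [DecidableEq β'] [DecidableEq β₂] [Fintype T] [Fintype T'] [Fintype T₂] in
theorem xf_prodE (f : α₂ → S₂ → ℝ) (c : α × β × (S → T))
    (d : α' × β' × (S' → T')) (t : T) (t' : T') :
    xf f (eα (c.1, d.1), eβ (c.2.1, d.2.1),
      fun x => eT (c.2.2 (eS.symm x).1, d.2.2 (eS.symm x).2)) (eT (t, t')) =
    ∑ s, if c.2.2 s = t then xf (innE eα eS f c.1 s) d t' else 0 := by
  unfold xf
  rw [← eS.sum_comp, Fintype.sum_prod_type]
  refine Finset.sum_congr rfl fun s _ => ?_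
  simp only [Equiv.symm_apply_apply, EmbeddingLike.apply_eq_iff_eq, Prod.mk.injEq]
  by_cases h : c.2.2 s = t
  · simp only [h, true_and, if_true]
    rfl
  · simp [h]

omit [Fintype T] [Fintype T'] [Fintype T₂] in
theorem Av_prodE (f : α₂ → S₂ → ℝ) (v : β) (v' : β') (t : T) (t' : T') :
    Av (prodE eα eβ eS eT G H) f (eβ (v, v')) (eT (t, t')) =
      Av G (fun u s => Av H (innE eα eS f u s) v' t') v t := by
  unfold Av
  rw [dg_prodE, ls_prodE, mul_comm (dg G v), ← div_div]
  congr 1
  rw [← ls_div]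
  refine ls_congr fun c _ => ?_
  by_cases h : c.2.1 = v
  · rw [if_pos h]
    have h1 : ∀ d ∈ H, (if eβ (c.2.1, d.2.1) = eβ (v, v') then
        xf f (eα (c.1, d.1), eβ (c.2.1, d.2.1),
          fun x => eT (c.2.2 (eS.symm x).1, d.2.2 (eS.symm x).2)) (eT (t, t')) else 0) =
        ∑ s, if c.2.2 s = t then
          (if d.2.1 = v' then xf (innE eα eS f c.1 s) d t' else 0) else 0 := by
      intro d _
      rw [xf_prodE]
      by_cases h' : d.2.1 = v'
      · simp only [h, h', if_true]
      · rw [if_neg]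
        · simp [h']
        · intro h2
          have := eβ.injective h2
          simp only [Prod.mk.injEq] at this
          exact h' this.2
    rw [ls_congr h1, ls_sum, Finset.sum_div]
    unfold xf
    refine Finset.sum_congr rfl fun s _ => ?_
    by_cases h2 : c.2.2 s = t
    · simp only [h2, if_true]
    · simp [h2, ls_zero]
  · rw [if_neg h]
    have h1 : ∀ d ∈ H, (if eβ (c.2.1, d.2.1) = eβ (v, v') then
        xf f (eα (c.1, d.1), eβ (c.2.1, d.2.1),
          fun x => eT (c.2.2 (eS.symm x).1, d.2.2 (eS.symm x).2)) (eT (t, t')) else 0) = 0 := by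
      intro d _
      rw [if_neg]
      intro h2
      have := eβ.injective h2
      simp only [Prod.mk.injEq] at this
      exact h this.1
    rw [ls_congr h1, ls_zero, zero_div]

/-- The norm is multiplicative. -/
theorem prodE_nrm {x y : ℝ} (hx : 0 ≤ x) (hG : Nrm G x) (hH : Nrm H y) :
    Nrm (prodE eα eβ eS eT G H) (x * y) := by
  intro f hf
  have hinn : ∀ u s u' s', 0 ≤ innE eα eS f u s u' s' := fun u s u' s' => hf _ _
  have h1 : N (prodE eα eβ eS eT G H) f =
      ls H fun d => ∑ t', N G fun u s => Av H (innE eα eS f u s) d.2.1 t' := by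
    unfold N
    rw [ls_prodE, ls_comm]
    refine ls_congr fun d _ => ?_
    rw [← ls_sum]
    refine ls_congr fun c _ => ?_
    rw [← eT.sum_comp, Fintype.sum_prod_type_right]
    refine Finset.sum_congr rfl fun t' _ => Finset.sum_congr rfl fun t _ => ?_
    rw [Av_prodE]
  have h2 : ∀ (v' : β') (t' : T'), N G (fun u s => Av H (innE eα eS f u s) v' t') ≤
      x * ls G fun c => (Av H (fun u' s' => ∑ s, innE eα eS f c.1 s u' s') v' t') ^ 2 := by
    intro v' t'
    refine (hG _ fun u s => Av_nonneg H (hinn u s) v' t').trans (le_of_eq ?_)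
    congr 1
    refine ls_congr fun c _ => ?_
    rw [Av_sum]
  have h3 : N (prodE eα eβ eS eT G H) f ≤
      x * ls G fun c => N H (fun u' s' => ∑ s, innE eα eS f c.1 s u' s') := by
    rw [h1]
    have h4 : (ls G fun c => N H (fun u' s' => ∑ s, innE eα eS f c.1 s u' s')) =
        ls H fun d => ∑ t', ls G fun c =>
          (Av H (fun u' s' => ∑ s, innE eα eS f c.1 s u' s') d.2.1 t') ^ 2 := by
      unfold N
      rw [ls_comm]
      refine ls_congr fun d _ => ?_
      rw [ls_sum]
    rw [h4, ← ls_mul]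
    refine ls_mono fun d _ => ?_
    rw [Finset.mul_sum]
    exact Finset.sum_le_sum fun t' _ => h2 _ _
  refine h3.trans ?_
  have h5 : (ls G fun c => N H (fun u' s' => ∑ s, innE eα eS f c.1 s u' s')) ≤
      y * Tn (prodE eα eβ eS eT G H) f := by
    unfold Tn
    rw [ls_prodE, ← ls_mul]
    refine ls_mono fun c _ => ?_
    refine (hH _ fun u' s' => Finset.sum_nonneg fun s _ => hinn _ _ _ _).trans (le_of_eq ?_)
    congr 1
    refine ls_congr fun d _ => ?_
    congr 1
    rw [← eS.sum_comp, Fintype.sum_prod_type_right]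
    rfl
  calc x * (ls G fun c => N H (fun u' s' => ∑ s, innE eα eS f c.1 s u' s'))
      ≤ x * (y * Tn (prodE eα eβ eS eT G H) f) := mul_le_mul_of_nonneg_left h5 hx
    _ = x * y * Tn (prodE eα eβ eS eT G H) f := by ring

end prod

section fam

variable {α β S T : Type} [DecidableEq β] [Fintype S] [Fintype T] [DecidableEq T]

/-- The product of a family of games. -/
def prodF : (k : ℕ) → (Fin k → PG α β S T) →
    PG (Fin k → α) (Fin k → β) (Fin k → S) (Fin k → T)
  | 0, _ => [(Fin.elim0, Fin.elim0, fun _ => Fin.elim0)]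
  | k + 1, G => prodE (Fin.consEquiv fun _ => α) (Fin.consEquiv fun _ => β)
      (Fin.consEquiv fun _ => S) (Fin.consEquiv fun _ => T) (G 0) (prodF k fun i => G i.succ)

theorem prodF_nrm : ∀ (k : ℕ) (G : Fin k → PG α β S T) (x : Fin k → ℝ), (∀ i, 0 ≤ x i) →
    (∀ i, Nrm (G i) (x i)) → Nrm (prodF k G) (∏ i, x i)
  | 0, G, x, _, _ => by
    intro f hf
    refine (N_le_Tn _ hf).trans (le_of_eq ?_)
    simp
  | k + 1, G, x, hx, hG => by
    rw [Fin.prod_univ_succ]
    exact prodE_nrm _ _ _ _ _ _ (hx 0) (hG 0)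
      (prodF_nrm k (fun i => G i.succ) (fun i => x i.succ) (fun i => hx _) fun i => hG _)

omit [DecidableEq β] [Fintype S] [Fintype T] [DecidableEq T] in
theorem prodF_length : ∀ (k : ℕ) (G : Fin k → PG α β S T),
    (prodF k G).length = ∏ i, (G i).length
  | 0, G => by simp [prodF]
  | k + 1, G => by
    rw [Fin.prod_univ_succ]
    unfold prodF
    rw [prodE_length, prodF_length k]

end fam

end Vale.Agent.P325.H290
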